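import Vale.Agent.P281.H22.TS.Xfer
import Vale.Agent.P281.H399.HK.Gen

/-!
# P281, project T-HK (helper22): closed holomorphic 2-forms on `E` and on a biholomorphic
manifold `F`
-/

open Set Filter Metric Vale.Agent.P272.K
open scoped Topology ContDiff Manifold ComplexConjugate ComplexOrder

set_option linter.unusedSectionVars false

noncomputable section

namespace Vale.Agent.P281.H22.HK

open Vale.Agent.P281.H64.TK Vale.Agent.P281.H64.TK.TS Vale.Agent.P281.H22.TS
open Vale.Agent.P281.H83.HK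
open Vale.Agent.P281.H399.HK (pm pm_pm pm_alt pm_det pm_smul pm_one dd_pull differentiableAt_jac)

/-! ### Matrices of functions -/

section mat
variable {d : ℕ}

theorem diff_pm {X : Type} [NormedAddCommGroup X] [NormedSpace ℂ X]
    {A B : X → Matrix (Fin d) (Fin d) ℂ} {x : X}
    (hA : ∀ k l, DifferentiableAt ℂ (fun x => A x k l) x)
    (hB : ∀ k l, DifferentiableAt ℂ (fun x => B x k l) x) (k l : Fin d) :
    DifferentiableAt ℂ (fun x => pm (A x) (B x) k l) x := by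
  simp only [pm, Matrix.mul_apply, Matrix.transpose_apply]
  refine DifferentiableAt.fun_sum fun a _ => ?_
  refine DifferentiableAt.mul ?_ (hA a l)
  exact DifferentiableAt.fun_sum fun b _ => (hA b k).mul (hB b a)

theorem dd_congr {f g : Cm d → ℂ} {z : Cm d} (h : f =ᶠ[𝓝 z] g) (k : Fin d) :
    dd k f z = dd k g z := by
  unfold dd
  rw [h.fderiv_eq]

theorem inv_mul' {J : Matrix (Fin d) (Fin d) ℂ} (h : J.det ≠ 0) : J⁻¹ * J = 1 :=
  Matrix.nonsing_inv_mul J (isUnit_iff_ne_zero.2 h)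

theorem mul_inv' {J : Matrix (Fin d) (Fin d) ℂ} (h : J.det ≠ 0) : J * J⁻¹ = 1 :=
  Matrix.mul_nonsing_inv J (isUnit_iff_ne_zero.2 h)

end mat

section bih
variable {d : ℕ} {E K F : Type} [TopologicalSpace E] [Group K] [MulAction K E]
  [TopologicalSpace F] [ChartedSpace (Cm d) F] {S : Sheets d E K} {τ : E ≃ₜ F}

/-- the Jacobian matrix of `e ∘ τ ∘ σ j` -/
def jm (S : Sheets d E K) (τ : E ≃ₜ F) (e : Chart d F) (j : Fin S.N) (z : Cm d) :
    Matrix (Fin d) (Fin d) ℂ :=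
  H64.TK.jac (fun u => e (τ (S.σ j u))) z

theorem jm_ne (h : Bih S τ) {j : Fin S.N} {z : Cm d} (hz : z ∈ ball (0 : Cm d) 3)
    {e : Chart d F} (he : e ∈ atlas (Cm d) F) (hs : τ (S.σ j z) ∈ e.source) :
    (jm S τ e j z).det ≠ 0 := h.dj_ne hz he hs

/-- the Jacobian matrix of the inverse -/
theorem jm_inv (h : Bih S τ) {j : Fin S.N} {z : Cm d} (hz : z ∈ ball (0 : Cm d) 3)
    {e : Chart d F} (he : e ∈ atlas (Cm d) F) (hs : τ (S.σ j z) ∈ e.source) {κ : Cm d → Cm d}
    (h1 : AnalyticAt ℂ κ (e (τ (S.σ j z)))) (h2 : κ (e (τ (S.σ j z))) = z)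
    (h4 : ∀ᶠ v in 𝓝 (e (τ (S.σ j z))), e (τ (S.σ j (κ v))) = v) :
    jm S τ e j z * H64.TK.jac κ (e (τ (S.σ j z))) = 1 := by
  have h5 : H64.TK.jac (fun v => e (τ (S.σ j (κ v)))) (e (τ (S.σ j z))) =
      H64.TK.jac (fun u => e (τ (S.σ j u))) z * H64.TK.jac κ (e (τ (S.σ j z))) :=
    jac_comp (η := fun u => e (τ (S.σ j u))) h2 (h.fwd j z hz e he hs).differentiableAt
      h1.differentiableAt
  have h6 : H64.TK.jac (fun v => e (τ (S.σ j (κ v)))) (e (τ (S.σ j z))) = 1 := by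
    rw [jac_congr (η := fun v => v) h4, jac_id]
  rw [h6] at h5
  exact h5.symm

/-- change of the chart -/
theorem jm_chart (h : Bih S τ) {j : Fin S.N} {z : Cm d} (hz : z ∈ ball (0 : Cm d) 3)
    {e e' : Chart d F} (he : e ∈ atlas (Cm d) F) (hs : τ (S.σ j z) ∈ e.source)
    (he' : e' ∈ atlas (Cm d) F) (hs' : τ (S.σ j z) ∈ e'.source) :
    jm S τ e' j z = H64.TK.jac (fun u => e' (e.symm u)) (e (τ (S.σ j z))) * jm S τ e j z := by
  obtain ⟨κ, h1, h2, h3⟩ := h.bwd j z hz e he hs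
  have h4 : (fun u => e' (e.symm u)) =ᶠ[𝓝 (e (τ (S.σ j z)))] fun v => e' (τ (S.σ j (κ v))) := by
    filter_upwards [h3] with v hv
    rw [hv, τ.apply_symm_apply]
  have h5 : AnalyticAt ℂ (fun u => e' (e.symm u)) (e (τ (S.σ j z))) := by
    refine AnalyticAt.congr ?_ h4.symm
    have h6 : AnalyticAt ℂ (fun u => e' (τ (S.σ j u))) (κ (e (τ (S.σ j z)))) := by
      rw [h2]
      exact h.fwd j z hz e' he' hs'
    exact h6.comp h1
  have h7 : (fun u => e' (τ (S.σ j u))) =ᶠ[𝓝 z] fun u => e' (e.symm (e (τ (S.σ j u)))) := by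
    have h8 : ContinuousAt (fun u => τ (S.σ j u)) z :=
      τ.continuous.continuousAt.comp (S.map_nhds j z hz).le
    filter_upwards [h8.eventually (e.open_source.mem_nhds hs)] with u hu
    rw [e.left_inv hu]
  show H64.TK.jac (fun u => e' (τ (S.σ j u))) z = _
  rw [jac_congr h7, jac_comp (η := fun u => e' (e.symm u)) rfl h5.differentiableAt
    (h.fwd j z hz e he hs).differentiableAt]
  rfl

/-- change of the sheet -/
theorem jm_sheet (h : Bih S τ) {i j : Fin S.N} {z z' : Cm d}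
    (hz' : z' ∈ ball (0 : Cm d) 3) {e : Chart d F} (he : e ∈ atlas (Cm d) F)
    (hs : τ (S.σ j z') ∈ e.source) {θ : Cm d → Cm d} (h1 : AnalyticAt ℂ θ z) (h2 : θ z = z')
    (h3 : ∀ᶠ u in 𝓝 z, S.σ i u = S.σ j (θ u)) :
    jm S τ e i z = jm S τ e j z' * H64.TK.jac θ z := by
  have h4 : (fun u => e (τ (S.σ i u))) =ᶠ[𝓝 z] fun u => e (τ (S.σ j (θ u))) := by
    filter_upwards [h3] with u hu
    rw [hu]
  show H64.TK.jac (fun u => e (τ (S.σ i u))) z = _
  rw [jac_congr h4, jac_comp (η := fun u => e (τ (S.σ j u))) h2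
    (h.fwd j z' hz' e he hs).differentiableAt h1.differentiableAt]
  rfl

/-! ### Forms: from `F` to `E` -/

/-- the pull-back of a 2-form to `E` -/
def up2 (S : Sheets d E K) (τ : E ≃ₜ F) (s : Chart d F → Cm d → Matrix (Fin d) (Fin d) ℂ)
    (j : Fin S.N) (z : Cm d) : Matrix (Fin d) (Fin d) ℂ :=
  pm (jm S τ (chartAt (Cm d) (τ (S.σ j z))) j z)
    (s (chartAt (Cm d) (τ (S.σ j z))) (chartAt (Cm d) (τ (S.σ j z)) (τ (S.σ j z))))

theorem up2_eq (h : Bih S τ) {s : Chart d F → Cm d → Matrix (Fin d) (Fin d) ℂ} (hc : IsHol2 s)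
    {j : Fin S.N} {z : Cm d} (hz : z ∈ ball (0 : Cm d) 3) {e : Chart d F}
    (he : e ∈ atlas (Cm d) F) (hs : τ (S.σ j z) ∈ e.source) :
    up2 S τ s j z = pm (jm S τ e j z) (s e (e (τ (S.σ j z)))) := by
  have h0 : chartAt (Cm d) (τ (S.σ j z)) ∈ atlas (Cm d) F := chart_mem_atlas _ _
  have hs0 : τ (S.σ j z) ∈ (chartAt (Cm d) (τ (S.σ j z))).source := mem_chart_source _ _
  have h1 := hc.change _ h0 e he _ ⟨hs0, hs⟩
  have h2 : s (chartAt (Cm d) (τ (S.σ j z))) (chartAt (Cm d) (τ (S.σ j z)) (τ (S.σ j z))) =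
      pm (H64.TK.jac (fun u => e ((chartAt (Cm d) (τ (S.σ j z))).symm u))
        (chartAt (Cm d) (τ (S.σ j z)) (τ (S.σ j z)))) (s e (e (τ (S.σ j z)))) := h1
  rw [up2, h2, pm_pm, ← jm_chart h hz h0 hs0 he hs]

theorem up2_ev (h : Bih S τ) {s : Chart d F → Cm d → Matrix (Fin d) (Fin d) ℂ} (hc : IsHol2 s)
    {j : Fin S.N} {z : Cm d} (hz : z ∈ ball (0 : Cm d) 3) {e : Chart d F}
    (he : e ∈ atlas (Cm d) F) (hs : τ (S.σ j z) ∈ e.source) (k l : Fin d) :
    (fun u => up2 S τ s j u k l) =ᶠ[𝓝 z] fun u =>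
      pm (H64.TK.jac (fun u => e (τ (S.σ j u))) u) (s e (e (τ (S.σ j u)))) k l := by
  have h8 : ContinuousAt (fun u => τ (S.σ j u)) z :=
    τ.continuous.continuousAt.comp (S.map_nhds j z hz).le
  filter_upwards [h8.eventually (e.open_source.mem_nhds hs), isOpen_ball.mem_nhds hz]
    with u hu hu3
  rw [up2_eq h hc hu3 he hu]
  rfl

theorem up2_hol (h : Bih S τ) {s : Chart d F → Cm d → Matrix (Fin d) (Fin d) ℂ}
    (hc : IsHol2 s) : Hol2 S (up2 S τ s) := by
  refine ⟨fun j k l z hz => ?_, fun j z hz => ?_, fun j z hz k l m => ?_,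
    fun i j z hz z' hz' θ h1 h2 h3 => ?_⟩
  · set e := chartAt (Cm d) (τ (S.σ j z)) with hedef
    have he : e ∈ atlas (Cm d) F := chart_mem_atlas _ _
    have hs : τ (S.σ j z) ∈ e.source := mem_chart_source _ _
    have h9 := up2_ev h hc hz he hs k l
    have h10 : ∀ a b, DifferentiableAt ℂ (fun u => s e (e (τ (S.σ j u))) a b) z := by
      intro a b
      have h11 : DifferentiableAt ℂ (fun v => s e v a b) (e (τ (S.σ j z))) :=
        (hc.hol e he a b).differentiableAt (e.open_target.mem_nhds (e.map_source hs))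
      exact DifferentiableAt.comp (g := fun v => s e v a b) (f := fun u => e (τ (S.σ j u))) z h11
        (h.fwd j z hz e he hs).differentiableAt
    have h12 : ∀ a b, DifferentiableAt ℂ
        (fun u => H64.TK.jac (fun u => e (τ (S.σ j u))) u a b) z := fun a b =>
      differentiableAt_jac (h.fwd j z hz e he hs) a b
    exact ((diff_pm h12 h10 k l).congr_of_eventuallyEq h9).differentiableWithinAt
  · have he : chartAt (Cm d) (τ (S.σ j z)) ∈ atlas (Cm d) F := chart_mem_atlas _ _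
    have hs : τ (S.σ j z) ∈ (chartAt (Cm d) (τ (S.σ j z))).source := mem_chart_source _ _
    exact pm_alt (hc.alt _ he _ (OpenPartialHomeomorph.map_source _ hs))
  · set e := chartAt (Cm d) (τ (S.σ j z)) with hedef
    have he : e ∈ atlas (Cm d) F := chart_mem_atlas _ _
    have hs : τ (S.σ j z) ∈ e.source := mem_chart_source _ _
    have ht := e.map_source hs
    rw [dd_congr (up2_ev h hc hz he hs k l) m, dd_congr (up2_ev h hc hz he hs l m) k,
      dd_congr (up2_ev h hc hz he hs m k) l]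
    exact dd_pull (s := s e) (θ := fun u => e (τ (S.σ j u))) (h.fwd j z hz e he hs) rfl
      (fun a b => (hc.hol e he a b).differentiableAt (e.open_target.mem_nhds ht))
      (hc.alt e he _ ht) (hc.closed e he _ ht) k l m
  · set e := chartAt (Cm d) (τ (S.σ j z')) with hedef
    have he : e ∈ atlas (Cm d) F := chart_mem_atlas _ _
    have hs' : τ (S.σ j z') ∈ e.source := mem_chart_source _ _
    have h4 : S.σ i z = S.σ j z' := by
      have h5 := h3.self_of_nhds
      rw [h2] at h5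
      exact h5
    have hs : τ (S.σ i z) ∈ e.source := by rw [h4]; exact hs'
    show _ = pm (H64.TK.jac θ z) (up2 S τ s j z')
    rw [up2_eq h hc hz he hs, up2_eq h hc hz' he hs', jm_sheet h hz' he hs' h1 h2 h3, h4, pm_pm]

/-! ### Forms: from `E` to `F` -/

variable [Subsingleton K]

/-- the 2-form on `F` given by a 2-form on `E` -/
def down2 (S : Sheets d E K) (τ : E ≃ₜ F) (s : Fin S.N → Cm d → Matrix (Fin d) (Fin d) ℂ)
    (e : Chart d F) (v : Cm d) : Matrix (Fin d) (Fin d) ℂ :=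
  pm (jm S τ e (pt S (τ.symm (e.symm v))).1 (pt S (τ.symm (e.symm v))).2)⁻¹
    (s (pt S (τ.symm (e.symm v))).1 (pt S (τ.symm (e.symm v))).2)

theorem down2_eq (h : Bih S τ) {s : Fin S.N → Cm d → Matrix (Fin d) (Fin d) ℂ} (hc : Hol2 S s)
    {j : Fin S.N} {z : Cm d} (hz : z ∈ ball (0 : Cm d) 3) {e : Chart d F}
    (he : e ∈ atlas (Cm d) F) (hs : τ (S.σ j z) ∈ e.source) :
    down2 S τ s e (e (τ (S.σ j z))) = pm (jm S τ e j z)⁻¹ (s j z) := by
  unfold down2
  rw [e.left_inv hs, τ.symm_apply_apply]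
  set q := pt S (S.σ j z) with hq
  have hq3 : q.2 ∈ ball (0 : Cm d) 3 := pt_mem S _
  have hqs : S.σ q.1 q.2 = S.σ j z := pt_spec S _
  obtain ⟨θ, h1, h2, h3⟩ := S.hol j q.1 z hz q.2 hq3 1 (by rw [one_smul, hqs])
  simp only [one_smul] at h3
  have hs' : τ (S.σ q.1 q.2) ∈ e.source := by rw [hqs]; exact hs
  have h4 := jm_sheet h hq3 he hs' h1 h2 h3
  have h5 : s j z = pm (H64.TK.jac θ z) (s q.1 q.2) := hc.change j q.1 z hz q.2 hq3 θ h1 h2 h3
  have h6 : (H64.TK.jac θ z).det ≠ 0 := by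
    intro h7
    have h8 := jm_ne h hz he hs
    rw [h4, Matrix.det_mul, h7, mul_zero] at h8
    exact h8 rfl
  rw [h4, h5, pm_pm, Matrix.mul_inv_rev, ← Matrix.mul_assoc, mul_inv' h6, Matrix.one_mul]

theorem down2_ev (h : Bih S τ) {s : Fin S.N → Cm d → Matrix (Fin d) (Fin d) ℂ} (hc : Hol2 S s)
    {e : Chart d F} (he : e ∈ atlas (Cm d) F) {v : Cm d} (hv : v ∈ e.target) :
    ∃ (j : Fin S.N) (z : Cm d) (κ : Cm d → Cm d), z ∈ ball (0 : Cm d) 3 ∧ AnalyticAt ℂ κ v ∧
      κ v = z ∧ ∀ k l, (fun v' => down2 S τ s e v' k l) =ᶠ[𝓝 v] fun v' =>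
        pm (H64.TK.jac κ v') (s j (κ v')) k l := by
  set ε := τ.symm (e.symm v) with hε
  have hz := pt_mem S ε
  have hσ := pt_spec S ε
  have hx : τ (S.σ (pt S ε).1 (pt S ε).2) = e.symm v := by
    rw [hσ, hε, τ.apply_symm_apply]
  have hs : τ (S.σ (pt S ε).1 (pt S ε).2) ∈ e.source := by rw [hx]; exact e.map_target hv
  have hev : e (τ (S.σ (pt S ε).1 (pt S ε).2)) = v := by rw [hx, e.right_inv hv]
  obtain ⟨κ, h1, h2, h3⟩ := h.bwd _ _ hz e he hs
  have h4 := left_ev hs h3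
  rw [hev] at h1 h2 h3 h4
  have h5 : ∀ᶠ v' in 𝓝 v, κ v' ∈ ball (0 : Cm d) 3 := by
    refine h1.continuousAt.eventually (p := fun y => y ∈ ball (0 : Cm d) 3) ?_
    rw [h2]
    exact isOpen_ball.mem_nhds hz
  refine ⟨(pt S ε).1, (pt S ε).2, κ, hz, h1, h2, fun k l => ?_⟩
  filter_upwards [h3, h4.eventually_nhds, h5, e.open_target.mem_nhds hv,
    h1.eventually_analyticAt] with v' a3 a4 a5 a6 a9
  have a4' := a4.self_of_nhds
  have a7 : τ (S.σ (pt S ε).1 (κ v')) ∈ e.source := by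
    rw [a3, τ.apply_symm_apply]
    exact e.map_target a6
  have a8 := down2_eq h hc a5 he a7
  rw [a4'] at a8
  have a10 := jm_inv h a5 he a7 (κ := κ) (by rw [a4']; exact a9) (by rw [a4'])
    (by rw [a4']; exact a4)
  rw [a4'] at a10
  rw [a8, Matrix.inv_eq_right_inv a10]

theorem down2_hol (h : Bih S τ) {s : Fin S.N → Cm d → Matrix (Fin d) (Fin d) ℂ}
    (hc : Hol2 S s) : IsHol2 (down2 S τ s) := by
  refine ⟨fun e he k l v hv => ?_, fun e he v hv => ?_, fun e he v hv k l m => ?_,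
    fun e he e' he' x hx => ?_⟩
  · obtain ⟨j, z, κ, hz, h1, h2, h6⟩ := down2_ev h hc he hv
    have h7 : ∀ a b, DifferentiableAt ℂ (fun v' => s j (κ v') a b) v := by
      intro a b
      have h8 : DifferentiableAt ℂ (fun y => s j y a b) (κ v) := by
        rw [h2]
        exact (hc.hol _ a b).differentiableAt (isOpen_ball.mem_nhds hz)
      exact DifferentiableAt.comp (g := fun y => s j y a b) (f := κ) v h8
        h1.differentiableAt
    have h9 : ∀ a b, DifferentiableAt ℂ (fun v' => H64.TK.jac κ v' a b) v := fun a b =>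
      differentiableAt_jac h1 a b
    exact ((diff_pm h9 h7 k l).congr_of_eventuallyEq (h6 k l)).differentiableWithinAt
  · have hz := pt_mem S (τ.symm (e.symm v))
    exact pm_alt (hc.alt _ _ hz)
  · obtain ⟨j, z, κ, hz, h1, h2, h6⟩ := down2_ev h hc he hv
    rw [dd_congr (h6 k l) m, dd_congr (h6 l m) k, dd_congr (h6 m k) l]
    exact dd_pull (s := s j) h1 h2
      (fun a b => (hc.hol j a b).differentiableAt (isOpen_ball.mem_nhds hz))
      (hc.alt j z hz) (hc.closed j z hz) k l m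
  · set ε := τ.symm x with hε
    have hz := pt_mem S ε
    have hσ := pt_spec S ε
    have hx' : τ (S.σ (pt S ε).1 (pt S ε).2) = x := by
      rw [hσ, hε, τ.apply_symm_apply]
    have hs : τ (S.σ (pt S ε).1 (pt S ε).2) ∈ e.source := by rw [hx']; exact hx.1
    have hs' : τ (S.σ (pt S ε).1 (pt S ε).2) ∈ e'.source := by rw [hx']; exact hx.2
    have h1 := down2_eq h hc hz he hs
    have h2 := down2_eq h hc hz he' hs'
    have h3 := jm_chart h hz he hs he' hs'
    have h5 := jm_ne h hz he' hs'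
    rw [hx'] at h1 h2 h3
    show _ = pm (H64.TK.jac (fun u => e' (e.symm u)) (e x)) (down2 S τ s e' (e' x))
    rw [h1, h2]
    set T := H64.TK.jac (fun u => e' (e.symm u)) (e x) with hT
    have hTd : T.det ≠ 0 := by
      intro h7
      rw [h3, Matrix.det_mul, h7, zero_mul] at h5
      exact h5 rfl
    rw [h3, pm_pm, Matrix.mul_inv_rev, Matrix.mul_assoc, inv_mul' hTd, Matrix.mul_one]

/-- **Closed holomorphic 2-forms on `E` and `F`.** -/
theorem gen2 (h : Bih S τ) (hd : 0 < d) (hF : Sympl d F) : ∃ s, Gen2 S s ∧ DetNe S s := by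
  obtain ⟨s, hs, ⟨e, he, u, hu, hne⟩, huni⟩ := hF
  have hdet : DetNe S (up2 S τ s) := by
    set ε := τ.symm (e.symm u) with hε
    have hz := pt_mem S ε
    have hσ := pt_spec S ε
    have hx : τ (S.σ (pt S ε).1 (pt S ε).2) = e.symm u := by
      rw [hσ, hε, τ.apply_symm_apply]
    have hes : τ (S.σ (pt S ε).1 (pt S ε).2) ∈ e.source := by rw [hx]; exact e.map_target hu
    refine ⟨(pt S ε).1, (pt S ε).2, hz, ?_⟩
    rw [up2_eq h hs hz he hes, pm_det]
    refine mul_ne_zero (pow_ne_zero 2 (jm_ne h hz he hes)) ?_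
    rw [hx, e.right_inv hu]
    exact hne
  refine ⟨up2 S τ s, ⟨up2_hol h hs, ?_, fun s' hs' => ?_⟩, hdet⟩
  · obtain ⟨i, z, hz, h1⟩ := hdet
    refine ⟨i, z, hz, fun h2 => h1 ?_⟩
    have : Nonempty (Fin d) := ⟨⟨0, hd⟩⟩
    rw [h2, Matrix.det_zero]
  · obtain ⟨c, hc⟩ := huni (down2 S τ s') (down2_hol h hs')
    refine ⟨c, fun j z hz => ?_⟩
    set e := chartAt (Cm d) (τ (S.σ j z)) with hedef
    have he : e ∈ atlas (Cm d) F := chart_mem_atlas _ _
    have hes : τ (S.σ j z) ∈ e.source := mem_chart_source _ _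
    have h1 := hc e he _ (e.map_source hes)
    rw [down2_eq h hs' hz he hes] at h1
    rw [up2_eq h hs hz he hes, ← pm_smul, ← h1, pm_pm, inv_mul' (jm_ne h hz he hes), pm_one]

end bih

end Vale.Agent.P281.H22.HK
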