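import Vale.Agent.P281.H22.TS.FibK
import Vale.Agent.P281.H22.HK.Xfer2

/-!
# P281, project T-HK (helper22): a compact, simply connected `F → f⁻¹(y)` is the universal covering
of the fibre, in any dimension
-/

open Set Filter Metric Vale.Agent.P281 Vale.Agent.P281.H713 Vale.Agent.P272.K
open Vale.Agent.P281.H603.TE (sub)
open scoped Topology ContDiff Manifold ComplexConjugate ComplexOrder

set_option linter.unusedSectionVars false

noncomputable section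

namespace Vale.Agent.P281.H22.HK

open Vale.Agent.P281.H64.TK Vale.Agent.P281.H64.TK.TS Vale.Agent.P281.H22.TS
open Vale.Agent.P281.H125.Fib Vale.Agent.P281.H969.K.FibN Vale.Agent.P281.H603.TE
open Vale.Agent.P281.H603.K Vale.Agent.P281.H83.HK

attribute [local instance] ccs'

section
variable {p d : ℕ} {Z Y : Type} [TopologicalSpace Z] [T2Space Z] [ChartedSpace (Cm (p + d)) Z]
  [IsManifold 𝓘(ℂ, Cm (p + d)) ω Z] [TopologicalSpace Y] [T2Space Y] [ChartedSpace (Cm p) Y]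
  [IsManifold 𝓘(ℂ, Cm p) ω Y]

/-- **The model, with a biholomorphic map from its universal covering to `F`.** -/
theorem exists_model (hd : 0 < d) {f : Z → Y} {S : Set Y}
    (hf : ContMDiff 𝓘(ℂ, Cm (p + d)) 𝓘(ℂ, Cm p) ω f)
    (hP : H64.IsProperFibration (n := p + d) (p := p) f S) (hAB : ABStmt) {y : Y} (hy : y ∉ S)
    {F : Type} [TopologicalSpace F] [T2Space F] [SimplyConnectedSpace F] [ChartedSpace (Cm d) F]
    {i : F → Z} (hI : H511.Surf.IsFibre (Cm (p + d)) (Cm d) f y i) :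
    ∃ (E Γ : Type) (_ : TopologicalSpace E) (_ : T2Space E) (_ : SimplyConnectedSpace E)
      (_ : Group Γ) (_ : MulAction Γ E) (_ : ContinuousConstSMul Γ E)
      (_ : (⊥ : Subgroup Γ).FiniteIndex) (𝓕 : Fam p d E Γ)
      (q : Cm p → E → Z) (χ : OpenPartialHomeomorph Y (Cm p)) (t : Cm p) (ht : t ∈ 𝓕.T),
      Model (n := p + d) f 𝓕 χ q ∧ χ.symm t = y ∧ 0 < Nat.card Γ ∧
        ∃ τ : E ≃ₜ F, (∀ e, i (τ e) = q t e) ∧ Bih (sub (𝓕.at t ht) (⊥ : Subgroup Γ)) τ := by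
  obtain ⟨E, Γ, tE, t2, sc, gΓ, aΓ, cΓ, 𝓕, q, M, ht, -⟩ := hAB p d Z Y f S hd hf hP y hy
  have hyy : (chartAt (Cm p) y).symm (chartAt (Cm p) y y) = y :=
    (chartAt (Cm p) y).left_inv (mem_chart_source _ y)
  have hqd := qd_of_model M ht
  have hFc : CompactSpace F := hI.compact
  have hFm : IsManifold 𝓘(ℂ, Cm d) ω F := hI.manifold
  set Q := q (chartAt (Cm p) y y) with hQ
  have hri : range Q = f ⁻¹' {y} := by
    rw [hQ, range_of_model M ht, hyy]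
  have hib : ∀ x, i x ∈ f ⁻¹' {y} := fun x => hI.fibre x
  have hQb : ∀ e, Q e ∈ f ⁻¹' {y} := fun e => by
    rw [← hri]
    exact ⟨e, rfl⟩
  have hcov : IsCoveringMap fun x : F => (⟨i x, hib x⟩ : f ⁻¹' {y}) :=
    isCovering hqd hI.hol hI.immersion hri hib
  have hfb : ∀ e, Q e ∈ f ⁻¹' {(chartAt (Cm p) y).symm (chartAt (Cm p) y y)} := M.fib _ ht
  have hcovE : IsCoveringMap fun e : E => (⟨Q e, hQb e⟩ : f ⁻¹' {y}) :=
    cov_congr (A := f ⁻¹' {(chartAt (Cm p) y).symm (chartAt (Cm p) y y)}) (by rw [hyy]) hfb hQb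
      (M.cov _ ht)
  have hLE : LocallyPathConnectedSpace E := locPath (𝓕.at _ ht)
  have hLF : LocallyPathConnectedSpace F := ChartedSpace.locallyPathConnectedSpace (Cm d) F
  obtain ⟨x₀⟩ : Nonempty F := inferInstance
  have hx₀ : i x₀ ∈ range Q := by
    rw [hri]
    exact hib x₀
  obtain ⟨e₀, he₀⟩ := hx₀
  obtain ⟨τ, hτ⟩ := exists_homeo hcovE hcov (e₀ := e₀) (x₀ := x₀) (Subtype.ext he₀.symm)
  have hτ' : ∀ e, i (τ e) = Q e := fun e => congrArg Subtype.val (hτ e)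
  -- `Γ` is finite
  have hfinite : ((fun x : F => (⟨i x, hib x⟩ : f ⁻¹' {y})) ⁻¹' {⟨Q e₀, hQb e₀⟩}).Finite := by
    have h1 : IsClosed ((fun x : F => (⟨i x, hib x⟩ : f ⁻¹' {y})) ⁻¹' {⟨Q e₀, hQb e₀⟩}) :=
      isClosed_singleton.preimage hcov.continuous
    have h2 : DiscreteTopology
        ((fun x : F => (⟨i x, hib x⟩ : f ⁻¹' {y})) ⁻¹' {⟨Q e₀, hQb e₀⟩}) :=
      (hcov _).discreteTopology_fiber
    exact h1.isCompact.finite ⟨h2⟩
  have hΓ : Finite Γ := by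
    have h3 : Finite ((fun x : F => (⟨i x, hib x⟩ : f ⁻¹' {y})) ⁻¹' {⟨Q e₀, hQb e₀⟩}) := hfinite
    refine Finite.of_injective (fun γ : Γ => (⟨τ (γ • e₀), ?_⟩ :
      (fun x : F => (⟨i x, hib x⟩ : f ⁻¹' {y})) ⁻¹' {⟨Q e₀, hQb e₀⟩})) ?_
    · show (⟨i (τ (γ • e₀)), hib _⟩ : f ⁻¹' {y}) = ⟨Q e₀, hQb e₀⟩
      refine Subtype.ext ?_
      show i (τ (γ • e₀)) = Q e₀
      rw [hτ']
      exact ((hqd.Qeq _ _).2 ⟨γ, rfl⟩).symm
    · intro γ γ' hγ
      have h4 : τ (γ • e₀) = τ (γ' • e₀) := congrArg Subtype.val hγ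
      have h5 : γ • e₀ = γ' • e₀ := τ.injective h4
      have h6 : (γ'⁻¹ * γ) • e₀ = e₀ := by rw [mul_smul, h5, inv_smul_smul]
      have h7 := Sh.free (𝓕.at _ ht) h6
      rw [inv_mul_eq_one] at h7
      exact h7.symm
  have hfin : (⊥ : Subgroup Γ).FiniteIndex := inferInstance
  exact ⟨E, Γ, tE, t2, sc, gΓ, aΓ, cΓ, hfin, 𝓕, q, chartAt (Cm p) y, _, ht, M, hyy,
    Nat.card_pos, τ, hτ', bih_of hqd hI.hol hI.immersion hτ' ⊥⟩

/-- In some model of `f` at `y`, the universal covering `E` of the fibre is compact, with `N` sheets,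
and the space of its closed holomorphic 2-forms is generated by one form, whose determinant is not
identically zero. -/
def NDegH (p d N : ℕ) {Z Y : Type} [TopologicalSpace Z] [ChartedSpace (Cm (p + d)) Z]
    [TopologicalSpace Y] [ChartedSpace (Cm p) Y] (f : Z → Y) (y : Y) : Prop :=
  ∃ (E Γ : Type) (_ : TopologicalSpace E) (_ : T2Space E) (_ : SimplyConnectedSpace E)
    (_ : Group Γ) (_ : MulAction Γ E) (_ : ContinuousConstSMul Γ E)
    (_ : (⊥ : Subgroup Γ).FiniteIndex) (𝓕 : Fam p d E Γ)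
    (q : Cm p → E → Z) (χ : OpenPartialHomeomorph Y (Cm p)) (t : Cm p) (ht : t ∈ 𝓕.T),
    Model (n := p + d) f 𝓕 χ q ∧ χ.symm t = y ∧ Nat.card Γ = N ∧
      ∃ s, Gen2 (sub (𝓕.at t ht) (⊥ : Subgroup Γ)) s ∧
        DetNe (sub (𝓕.at t ht) (⊥ : Subgroup Γ)) s

/-- **G3 of T-HK** -/
theorem fibH (hd : 0 < d) {f : Z → Y} {S : Set Y}
    (hf : ContMDiff 𝓘(ℂ, Cm (p + d)) 𝓘(ℂ, Cm p) ω f)
    (hP : H64.IsProperFibration (n := p + d) (p := p) f S) (hAB : ABStmt) {y : Y} (hy : y ∉ S)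
    {F : Type} [TopologicalSpace F] [T2Space F] [SimplyConnectedSpace F] [ChartedSpace (Cm d) F]
    {i : F → Z} (hI : H511.Surf.IsFibre (Cm (p + d)) (Cm d) f y i) (hF : Sympl d F) :
    ∃ N, 0 < N ∧ NDegH p d N f y := by
  obtain ⟨E, Γ, tE, t2, sc, gΓ, aΓ, cΓ, hfin, 𝓕, q, χ, t, ht, M, hyy, hN, τ, -, hB⟩ :=
    exists_model hd hf hP hAB hy hI
  exact ⟨Nat.card Γ, hN, E, Γ, tE, t2, sc, gΓ, aΓ, cΓ, hfin, 𝓕, q, χ, t, ht, M, hyy, rfl,
    gen2 hB hd hF⟩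

end

end Vale.Agent.P281.H22.HK
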