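import Vale.Agent.P281.H22.HK.Fib
import Vale.Agent.P281.H83.HK.Spec

/-!
# P281, project T-HK (helper22), block G3': the fibre
-/

noncomputable section

namespace Vale.Agent.P281.H22.HK

open Vale.Agent.P281.H83.HK

/-- **G3'** -/
theorem fib2 : Fib2Stmt := by
  intro p d Z Y _ _ _ _ _ _ _ _ f S hd hf hP hAB y hy F _ _ _ _ i hI hF
  exact fibH hd hf hP hAB hy hI hF

end Vale.Agent.P281.H22.HK
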